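import Vale.Agent.P253.Apr
import Vale.Agent.P253.Rz
import Vale.Agent.P128.Wey

/-!
The Hoermander estimate in one variable with matrix weights. `f z = d2 χ z • v z`. By `dual_cs` and
the hypothesis `‖f z ⬝ᵥ t z‖ ≤ √(m z) * √(l z * re (hf K t t))`; Cauchy-Schwarz for integrals (or
`2ab ≤ ε a² + b² / ε` and optimise) and `apriori` give the hypothesis of `riesz` with `C = ∫ m`.
For `u` from `riesz` and a real test function `φ` take `t = φ • Pi.single i 1`: `∇ φ = 2 * d2 φ`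
(`P128.grad_eq`), `∫ d2 (χ v_i φ) = 0` (`int_d2`, `d2_holo`), so `χ v_i - u_i` satisfies the
hypothesis of `P128.wey`; get holomorphic `w_i = χ v_i - u_i` a.e. on `U`.
-/

namespace Vale.Agent.P253

open Complex Matrix Metric Set Filter Topology MeasureTheory
open scoped ContDiff ComplexConjugate ComplexOrder ENNReal

variable {n : ℕ}

theorem hor_opt {N A B : ℝ} (hN : 0 ≤ N) (hA : 0 ≤ A) (hB : 0 ≤ B)
    (h : ∀ ε : ℝ, 0 < ε → 2 * N ≤ ε * A + B / ε) : N ^ 2 ≤ A * B := by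
  rcases hN.eq_or_lt with h0 | h0
  · rw [← h0]
    simpa using mul_nonneg hA hB
  rcases hA.eq_or_lt with h1 | h1
  · exfalso
    have h2 : 0 < B / N + 1 := by positivity
    have h3 := h _ h2
    have h4 : B / (B / N + 1) < N := by
      rw [div_lt_iff₀ h2, mul_add, mul_div_cancel₀ _ h0.ne']
      linarith
    rw [← h1] at h3
    linarith
  · have h3 := h (N / A) (by positivity)
    rw [div_mul_cancel₀ _ h1.ne', div_div_eq_mul_div] at h3
    have h4 : N ≤ B * A / N := by linarith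
    rw [le_div_iff₀ h0] at h4
    linarith

theorem hor_cs {μ : Measure ℂ} {a b : ℂ → ℝ} {F : ℂ → ℂ} (ha : Integrable a μ)
    (hb : Integrable b μ) (h : ∀ᵐ z ∂μ, 0 ≤ a z ∧ 0 ≤ b z ∧ ‖F z‖ ^ 2 ≤ a z * b z) :
    ‖∫ z, F z ∂μ‖ ^ 2 ≤ (∫ z, a z ∂μ) * ∫ z, b z ∂μ := by
  refine hor_opt (norm_nonneg _) (integral_nonneg_of_ae (h.mono fun z hz => hz.1))
    (integral_nonneg_of_ae (h.mono fun z hz => hz.2.1)) fun ε hε => ?_
  have i1 : Integrable (fun z => ε * a z + b z / ε) μ := (ha.const_mul ε).add (hb.div_const ε)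
  have h1 : ‖∫ z, F z ∂μ‖ ≤ ∫ z, (ε * a z + b z / ε) / 2 ∂μ := by
    refine norm_integral_le_of_norm_le (i1.div_const 2) (h.mono fun z hz => ?_)
    obtain ⟨h2, h3, h4⟩ := hz
    refine (pow_le_pow_iff_left₀ (norm_nonneg _) (by positivity) two_ne_zero).1 (h4.trans ?_)
    have e : a z * b z = (ε * a z) * (b z / ε) := by field_simp
    rw [e]
    nlinarith [sq_nonneg (ε * a z - b z / ε)]
  rw [integral_div, integral_add (ha.const_mul ε) (hb.div_const ε), integral_const_mul,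
    integral_div] at h1
  linarith

theorem hor_int {Y : Type} [NormedAddCommGroup Y] {U C : Set ℂ} {g : ℂ → Y}
    (hg : ContinuousOn g U) (hC : IsCompact C) (hCU : C ⊆ U) (h0 : ∀ z ∉ C, g z = 0) :
    IntegrableOn g U :=
  (((hg.mono hCU).integrableOn_compact hC).integrable_of_forall_notMem_eq_zero h0).integrableOn

theorem hor_d2 {φ : ℂ → ℝ} (hφ : ContDiff ℝ ∞ φ) (z : ℂ) :
    gradient φ z = 2 * d2 (fun w => (φ w : ℂ)) z := by
  have h1 : ∀ v, fderiv ℝ (fun w => (φ w : ℂ)) z v = ((fderiv ℝ φ z v : ℝ) : ℂ) := fun v => by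
    have h2 := ofRealCLM.hasFDerivAt.comp z (hφ.differentiable (by simp) z).hasFDerivAt
    exact (congrArg (fun L : ℂ →L[ℝ] ℂ => L v) h2.fderiv).trans rfl
  rw [P128.grad_eq, d2, h1, h1]
  ring

theorem hor_bound {U : Set ℂ} (hU : IsOpen U) {K : ℂ → M n} (h : Sm U K) {l : ℂ → ℝ}
    (hn : Neg U K l) (hl : ContinuousOn l U) (l0 : ∀ z ∈ U, 0 ≤ l z) {c : ℂ → ℂ}
    {v : ℂ → Fin n → ℂ} {m : ℂ → ℝ} (m0 : ∀ z ∈ U, 0 ≤ m z) (mi : IntegrableOn m U)
    (hm : ∀ z ∈ U, normSq (c z) * nsq (K z)⁻¹ (v z) ≤ l z * m z) {t : ℂ → Fin n → ℂ}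
    (ht : Tst U t) : ‖∫ z in U, (c z • v z) ⬝ᵥ t z‖ ^ 2 ≤
      (∫ z in U, m z) * ∫ z in U, (hf (K z) (vd2 t z) (vd2 t z)).re := by
  have p0 : ∀ z ∈ U, 0 ≤ (hf (K z) (t z) (t z)).re := fun z hz =>
    ((h.pos z hz).posSemidef.dotProduct_mulVec_nonneg (t z)).1
  have ct : ∀ i, Continuous fun z => t z i := fun i => (ht.smooth i).continuous
  have cK : ∀ i j, ContinuousOn (fun z => K z i j) U := fun i j => (h.smooth i j).continuousOn
  have c1 : ContinuousOn (fun z => hf (K z) (t z) (t z)) U := by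
    simp only [hf, dotProduct, mulVec, Pi.star_apply]
    refine continuousOn_finsetSum _ fun i _ => (ct i).star.continuousOn.mul ?_
    exact continuousOn_finsetSum _ fun j _ => (cK i j).mul (ct j).continuousOn
  have i1 : IntegrableOn (fun z => l z * (hf (K z) (t z) (t z)).re) U := by
    refine hor_int (hl.mul (continuous_re.comp_continuousOn c1)) ht.cpt ht.sub fun z hz => ?_
    rw [image_eq_zero_of_notMem_tsupport hz]
    simp [hf]
  refine (hor_cs mi i1 ?_).trans (mul_le_mul_of_nonneg_left (apriori hU h hn hl ht)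
    (setIntegral_nonneg hU.measurableSet m0))
  filter_upwards [ae_restrict_mem hU.measurableSet] with z hz
  refine ⟨m0 z hz, mul_nonneg (l0 z hz) (p0 z hz), ?_⟩
  rw [smul_dotProduct, smul_eq_mul, norm_mul, mul_pow, ← normSq_eq_norm_sq]
  have h1 := mul_le_mul_of_nonneg_left (dual_cs (h.pos z hz) (v z) (t z)) (normSq_nonneg (c z))
  have h2 := mul_le_mul_of_nonneg_right (hm z hz) (p0 z hz)
  linarith

theorem hor_weak {U : Set ℂ} (hU : IsOpen U) {χ g u : ℂ → ℂ} (hχ : ContDiffOn ℝ ∞ χ U)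
    (hg : DifferentiableOn ℂ g U) (hu : LocallyIntegrableOn u U) {φ : ℂ → ℂ}
    (hφ : ContDiff ℝ ∞ φ) (hc : HasCompactSupport φ) (hs : tsupport φ ⊆ U)
    (e : ∫ z in U, u z * d2 φ z = -∫ z in U, d2 χ z * g z * φ z) :
    ∫ z in U, (χ z * g z - u z) * (2 * d2 φ z) = 0 := by
  have sg : ContDiffOn ℝ ∞ g U := (hg.contDiffOn hU).restrict_scalars ℝ
  have sp : ContDiffOn ℝ ∞ (fun z => χ z * g z) U := hχ.mul sg
  have z0 : ∀ z ∉ tsupport φ, φ =ᶠ[𝓝 z] fun _ => 0 := fun z hz =>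
    notMem_tsupport_iff_eventuallyEq.1 hz
  have z1 : ∀ z ∉ tsupport φ, d2 φ z = 0 := fun z hz => by rw [d2_congr (z0 z hz), d2_const]
  have z2 : ∀ z ∉ tsupport φ, (fun w => χ w * g w * φ w) =ᶠ[𝓝 z] fun _ => 0 := fun z hz => by
    filter_upwards [z0 z hz] with w hw
    rw [hw, mul_zero]
  have sΦ : ContDiff ℝ 1 fun w => χ w * g w * φ w := by
    refine contDiff_iff_contDiffAt.2 fun z => ?_
    by_cases hz : z ∈ U
    · exact ((sp.contDiffAt (hU.mem_nhds hz)).mul hφ.contDiffAt).of_le (by exact_mod_cast le_top)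
    · exact (contDiffAt_const (c := (0 : ℂ))).congr_of_eventuallyEq (z2 z fun h => hz (hs h))
  have cΦ : HasCompactSupport fun w => χ w * g w * φ w := hc.mul_left
  have cd : Continuous (d2 φ) :=
    continuousOn_univ.1 (d2_smooth isOpen_univ hφ.contDiffOn).continuousOn
  have i1 : IntegrableOn (fun z => χ z * g z * d2 φ z) U :=
    hor_int (sp.continuousOn.mul cd.continuousOn) hc hs fun z hz => by rw [z1 z hz, mul_zero]
  have i2 : IntegrableOn (fun z => d2 χ z * g z * φ z) U :=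
    hor_int (((d2_smooth hU hχ).continuousOn.mul sg.continuousOn).mul
      hφ.continuous.continuousOn) hc hs fun z hz => by
        rw [image_eq_zero_of_notMem_tsupport hz, mul_zero]
  have i3 : IntegrableOn (fun z => u z * d2 φ z) U :=
    (P128.wey_int hu cd hc hs z1).integrableOn
  have e1 : ∫ z in U, d2 (fun w => χ w * g w * φ w) z = 0 := by
    rw [setIntegral_eq_integral_of_forall_compl_eq_zero fun z hz => ?_, (int_d2 sΦ cΦ).2]
    rw [d2_congr (z2 z fun h => hz (hs h)), d2_const]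
  have e2 : ∫ z in U, d2 (fun w => χ w * g w * φ w) z =
      ∫ z in U, (d2 χ z * g z * φ z + χ z * g z * d2 φ z) := by
    refine setIntegral_congr_fun hU.measurableSet fun z hz => ?_
    have a1 := diffAt hU hχ hz
    have a2 := diffAt hU sg hz
    have a3 : DifferentiableAt ℝ φ z := hφ.differentiable (by simp) z
    rw [d2_mul (f := fun w => χ w * g w) (a1.mul a2) a3, d2_mul a1 a2,
      d2_holo (hg.differentiableAt (hU.mem_nhds hz))]
    ring
  rw [e1, integral_add i2 i1] at e2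
  have e3 : ∫ z in U, (χ z * g z - u z) * (2 * d2 φ z) =
      ∫ z in U, 2 * (χ z * g z * d2 φ z - u z * d2 φ z) :=
    integral_congr_ae (Eventually.of_forall fun z => by ring)
  rw [e3, integral_const_mul, integral_sub i1 i3, e]
  linear_combination (-2) * e2

theorem hormander {U : Set ℂ} (hU : IsOpen U) {K : ℂ → M n} (h : Sm U K) {l : ℂ → ℝ}
    (hn : Neg U K l) (hl : ContinuousOn l U) (l0 : ∀ z ∈ U, 0 ≤ l z) {χ : ℂ → ℝ}
    (hχ : ContDiffOn ℝ ∞ χ U) {v : ℂ → Fin n → ℂ} (hv : DifferentiableOn ℂ v U) {m : ℂ → ℝ}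
    (m0 : ∀ z ∈ U, 0 ≤ m z) (mi : IntegrableOn m U)
    (hm : ∀ z ∈ U, normSq (d2 (fun w => (χ w : ℂ)) z) * nsq (K z)⁻¹ (v z) ≤ l z * m z) :
    ∃ w : ℂ → Fin n → ℂ, DifferentiableOn ℂ w U ∧
      ∫⁻ z in U, ENNReal.ofReal (nsq (K z)⁻¹ ((χ z : ℂ) • v z - w z)) ≤
        ENNReal.ofReal (∫ z in U, m z) := by
  have sχ : ContDiffOn ℝ ∞ (fun w => (χ w : ℂ)) U := ofRealCLM.contDiff.comp_contDiffOn hχ
  have cf : ContinuousOn (fun z => d2 (fun w => (χ w : ℂ)) z • v z) U :=
    (d2_smooth hU sχ).continuousOn.smul hv.continuousOn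
  obtain ⟨u, u1, u2, u3⟩ := riesz hU h cf (setIntegral_nonneg hU.measurableSet m0)
    fun t ht => hor_bound hU h hn hl l0 m0 mi hm ht
  have hvi : ∀ i, DifferentiableOn ℂ (fun z => v z i) U := differentiableOn_pi.1 hv
  have key : ∀ i, ∃ k : ℂ → ℂ, DifferentiableOn ℂ k U ∧
      ∀ᵐ z : ℂ, z ∈ U → (χ z : ℂ) * v z i - u z i = k z := by
    intro i
    refine P128.wey hU (((sχ.continuousOn.mul (hvi i).continuousOn).locallyIntegrableOn
      hU.measurableSet).sub (u1 i)) fun φ hφ hc hs => ?_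
    have sφ : ContDiff ℝ ∞ fun w => (φ w : ℂ) := ofRealCLM.contDiff.comp hφ
    have sub1 : tsupport (fun w => (φ w : ℂ)) ⊆ tsupport φ :=
      closure_mono fun w hw h0 => hw (by simp [h0])
    have sub2 : tsupport (fun w j => if j = i then (φ w : ℂ) else 0) ⊆ tsupport φ :=
      closure_mono fun w hw h0 => hw (by funext j; simp [h0])
    have ht : Tst U fun w j => if j = i then (φ w : ℂ) else 0 := by
      refine ⟨fun j => ?_, hc.of_isClosed_subset (isClosed_tsupport _) sub2, sub2.trans hs⟩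
      by_cases hj : j = i
      · simpa only [hj, if_true] using sφ
      · simpa only [hj, if_false] using contDiff_const
    have e := u3 _ ht
    have e1 : ∀ z, u z ⬝ᵥ vd2 (fun w j => if j = i then (φ w : ℂ) else 0) z =
        u z i * d2 (fun w => (φ w : ℂ)) z := fun z => by
      rw [dotProduct, Finset.sum_eq_single i]
      · simp only [vd2, if_true]
      · intro j _ hj
        simp only [vd2, hj, if_false, d2_const, mul_zero]
      · simp
    have e2 : ∀ z, (d2 (fun w => (χ w : ℂ)) z • v z) ⬝ᵥ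
        (fun j => if j = i then (φ z : ℂ) else 0) =
        d2 (fun w => (χ w : ℂ)) z * v z i * φ z := fun z => by
      simp [dotProduct]
    simp only [e1, e2] at e
    simp only [hor_d2 hφ]
    exact hor_weak hU sχ (hvi i) (u1 i) sφ
      (hc.of_isClosed_subset (isClosed_tsupport _) sub1) (sub1.trans hs) e
  choose k k1 k2 using key
  refine ⟨fun z i => k i z, differentiableOn_pi.2 k1, le_of_eq_of_le ?_ u2⟩
  refine lintegral_congr_ae ((ae_restrict_iff' hU.measurableSet).2 ?_)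
  filter_upwards [ae_all_iff.2 k2] with z hz hzU
  have e : (χ z : ℂ) • v z - (fun i => k i z) = u z := by
    funext i
    rw [Pi.sub_apply, Pi.smul_apply, smul_eq_mul, ← hz i hzU]
    ring
  rw [e]

end Vale.Agent.P253
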