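import Vale.Agent.P253.Calc

/-!
Square integrable holomorphic functions on the punctured disc. Area mean value inequality: if `w` is
holomorphic near `closedBall z r` then `π r ^ 2 ‖w z‖ ^ 2 ≤ ∫ over ball z r of ‖w‖ ^ 2` (apply the
circle mean value formula to `w ^ 2` and polar coordinates `Complex.lintegral_comp_polarCoord_symm`;
grep `mean` in `Vale/Agent/P128`, `P071`, `P271A/Mean.lean`, `P290*` for a ready version; any constant
in place of `π` is fine). Simplest removal: `‖z * w z‖` is bounded near `0`, so `z * w z` extends to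
a holomorphic `k` (`differentiableOn_update_limUnder_of_bddAbove`); `k 0 = 0` since
`1 / ‖z‖ ^ 2` is not integrable (or use `..._of_isLittleO` and `∫ over pd r → 0`); `W = dslope k 0`.
The bound on `‖z‖ = 1 / 2` is the mean value inequality with `r = 1 / 4`, then the maximum principle
`Complex.norm_le_of_forall_mem_frontier_norm_le`.
-/

namespace Vale.Agent.P253

open Complex Matrix Metric Set Filter Topology MeasureTheory
open scoped ContDiff ComplexConjugate ComplexOrder ENNReal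

variable {n : ℕ}

theorem rem_rot (F : ℂ → ℂ) {a : ℂ} (ha : ‖a‖ = 1) (r : ℝ) :
    ∫ v in ball (0 : ℂ) r, F (a * v) = ∫ v in ball (0 : ℂ) r, F v := by
  have ha0 : a ≠ 0 := fun h => by simp [h] at ha
  have h1 : MeasurePreserving (fun z : ℂ => a * z) :=
    (rotation ⟨a, by simpa [Submonoid.unitSphere] using ha⟩).measurePreserving
  have h3 : MeasurableEmbedding (fun v : ℂ => a * v) :=
    (Homeomorph.mulLeft₀ a ha0).measurableEmbedding
  have h4 := h1.setIntegral_preimage_emb h3 F (ball 0 r)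
  have h5 : (fun v : ℂ => a * v) ⁻¹' ball 0 r = ball 0 r := by
    ext v
    simp [ha]
  rwa [h5] at h4

theorem rem_mean0 {F : ℂ → ℂ} {r r' : ℝ} (hr' : r < r') (hF : DifferentiableOn ℂ F (ball 0 r')) :
    ∫ v in ball (0 : ℂ) r, F v = volume.real (ball (0 : ℂ) r) * F 0 := by
  have hn : ∀ θ : ℝ, ‖circleMap 0 1 θ‖ = 1 := fun θ => by simp
  have hmem : ∀ a v : ℂ, ‖a‖ ≤ 1 → ‖v‖ ≤ r → a * v ∈ ball (0 : ℂ) r' := by
    intro a v ha hv
    rw [mem_ball_zero_iff, norm_mul]
    exact (mul_le_of_le_one_left (norm_nonneg _) ha).trans_lt (hv.trans_lt hr')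
  have hc : ContinuousOn (fun p : ℝ × ℂ => F (circleMap 0 1 p.1 * p.2))
      (Icc 0 (2 * Real.pi) ×ˢ closedBall 0 r) := by
    refine hF.continuousOn.comp (Continuous.continuousOn ?_) fun p hp => ?_
    · exact ((continuous_circleMap 0 1).comp continuous_fst).mul continuous_snd
    · exact hmem _ _ (hn _).le (mem_closedBall_zero_iff.1 hp.2)
  have hi : Integrable (Function.uncurry fun (θ : ℝ) (v : ℂ) => F (circleMap 0 1 θ * v))
      ((volume.restrict (uIoc 0 (2 * Real.pi))).prod (volume.restrict (ball 0 r))) := by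
    rw [Measure.prod_restrict, uIoc_of_le Real.two_pi_pos.le]
    exact (hc.integrableOn_compact (isCompact_Icc.prod (isCompact_closedBall _ _))).mono_set
      (prod_mono Ioc_subset_Icc_self ball_subset_closedBall)
  have h1 := intervalIntegral_integral_swap hi
  have h2 : ∀ v ∈ ball (0 : ℂ) r,
      ∫ θ in (0 : ℝ)..2 * Real.pi, F (circleMap 0 1 θ * v) = (2 * Real.pi : ℝ) * F 0 := by
    intro v hv
    have hv' : ‖v‖ ≤ r := (mem_ball_zero_iff.1 hv).le
    have hd : DifferentiableOn ℂ (fun t : ℂ => F (t * v)) (closedBall 0 1) :=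
      hF.comp (by fun_prop) fun t ht => hmem _ _ (mem_closedBall_zero_iff.1 ht) hv'
    have h3 : Real.circleAverage (fun t : ℂ => F (t * v)) 0 1 = F ((0 : ℂ) * v) := by
      refine DiffContOnCl.circleAverage (f := fun t : ℂ => F (t * v)) ?_
      rw [abs_one]
      refine DifferentiableOn.diffContOnCl ?_
      rwa [closure_ball _ one_ne_zero]
    rw [Real.circleAverage_def, zero_mul, Complex.real_smul] at h3
    rw [← h3, ← mul_assoc, ← Complex.ofReal_mul, mul_inv_cancel₀ Real.two_pi_pos.ne',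
      Complex.ofReal_one, one_mul]
  rw [setIntegral_congr_fun measurableSet_ball h2, setIntegral_const] at h1
  simp only [rem_rot F (hn _) r, intervalIntegral.integral_const, sub_zero,
    Complex.real_smul] at h1
  have h4 : ((2 * Real.pi : ℝ) : ℂ) ≠ 0 := Complex.ofReal_ne_zero.2 Real.two_pi_pos.ne'
  refine mul_left_cancel₀ h4 (h1.trans ?_)
  ring

theorem rem_mean {h : ℂ → ℂ} {c : ℂ} {r r' : ℝ} (hr : 0 < r) (hr' : r < r')
    (hh : DifferentiableOn ℂ h (ball c r')) :
    Real.pi * r ^ 2 * ‖h c‖ ^ 2 ≤ ∫ z in ball c r, ‖h z‖ ^ 2 := by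
  have h1 := (measurePreserving_add_left (volume : Measure ℂ) c).setIntegral_preimage_emb
    (measurableEmbedding_addLeft c) (h ^ 2) (ball c r)
  have h2 : ∀ s : ℝ, (fun v : ℂ => c + v) ⁻¹' ball c s = ball 0 s := fun s => by
    ext v
    simp [dist_eq_norm]
  have h3 : DifferentiableOn ℂ (fun v : ℂ => (h ^ 2) (c + v)) (ball 0 r') :=
    (hh.pow 2).comp (by fun_prop) fun v hv => by
      rw [← h2] at hv
      exact hv
  have h4 := norm_integral_le_integral_norm (μ := volume.restrict (ball c r)) (h ^ 2)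
  have h5 : volume.real (ball (0 : ℂ) r) = Real.pi * r ^ 2 := by
    rw [Measure.real, Complex.volume_ball, ENNReal.toReal_mul, ENNReal.toReal_pow,
      ENNReal.toReal_ofReal hr.le, ENNReal.coe_toReal, NNReal.coe_real_pi, mul_comm]
  rw [← h1, h2, rem_mean0 hr' h3, add_zero, norm_mul, Complex.norm_real,
    Real.norm_of_nonneg measureReal_nonneg, h5] at h4
  simpa only [Pi.pow_apply, norm_pow] using h4

theorem rem_lin {h : ℂ → ℂ} {c : ℂ} {r r' : ℝ} (hr : 0 < r) (hr' : r < r')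
    (hh : DifferentiableOn ℂ h (ball c r')) :
    ENNReal.ofReal (Real.pi * r ^ 2 * ‖h c‖ ^ 2) ≤ ∫⁻ z in ball c r, ENNReal.ofReal (‖h z‖ ^ 2) := by
  refine (ENNReal.ofReal_le_ofReal (rem_mean hr hr' hh)).trans
    ((Real.ofReal_le_enorm _).trans ((enorm_integral_le_lintegral_enorm _).trans_eq ?_))
  exact lintegral_congr fun z => Real.enorm_eq_ofReal (sq_nonneg _)

theorem rem_lim {w : ℂ → ℂ} (hw : DifferentiableOn ℂ w (pd 1))
    (hf : ∫⁻ z in pd 1, ENNReal.ofReal (‖w z‖ ^ 2) ≠ ⊤) :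
    Tendsto (fun z => w z * z) (𝓝[≠] 0) (𝓝 0) := by
  have h1 : Tendsto ((volume.restrict (pd 1)) ∘ fun z : ℂ => ball z (‖z‖ / 2)) (𝓝[≠] 0) (𝓝 0) := by
    have c1 : Continuous fun z : ℂ => ENNReal.ofReal ((‖z‖ / 2) ^ 2 * Real.pi) :=
      ENNReal.continuous_ofReal.comp (by fun_prop)
    have c2 := (c1.tendsto 0).mono_left (nhdsWithin_le_nhds (s := {0}ᶜ))
    simp only [norm_zero, zero_div, ne_eq, OfNat.ofNat_ne_zero, not_false_eq_true, zero_pow,
      zero_mul, ENNReal.ofReal_zero] at c2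
    refine tendsto_of_tendsto_of_tendsto_of_le_of_le tendsto_const_nhds c2 (fun _ => zero_le)
      fun z => (Measure.restrict_apply_le _ _).trans_eq ?_
    rw [Complex.volume_ball, ENNReal.ofReal_mul (sq_nonneg _), ENNReal.ofReal_pow (by positivity),
      ← NNReal.coe_real_pi, ENNReal.ofReal_coe_nnreal]
  have h2 := tendsto_setLIntegral_zero hf h1
  have h3 : ∀ᶠ z : ℂ in 𝓝[≠] 0, ENNReal.ofReal (Real.pi * (‖z‖ / 2) ^ 2 * ‖w z‖ ^ 2) ≤
      ∫⁻ x in ball z (‖z‖ / 2), ENNReal.ofReal (‖w x‖ ^ 2) ∂volume.restrict (pd 1) := by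
    filter_upwards [self_mem_nhdsWithin, mem_nhdsWithin_of_mem_nhds
      (ball_mem_nhds (0 : ℂ) (show (0 : ℝ) < 1 / 2 by norm_num))] with z hz hz'
    have k0 : 0 < ‖z‖ := norm_pos_iff.2 hz
    have k1 : ‖z‖ < 1 / 2 := mem_ball_zero_iff.1 hz'
    have k2 : ball z ‖z‖ ⊆ pd 1 := fun x hx => mem_pd.2 ⟨by
      have := norm_lt_of_mem_ball hx
      linarith, by
      rintro rfl
      simp at hx⟩
    rw [Measure.restrict_restrict_of_subset ((ball_subset_ball (by linarith)).trans k2)]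
    exact rem_lin (by linarith) (half_lt_self k0) (hw.mono k2)
  have h4 := (ENNReal.tendsto_toReal ENNReal.zero_ne_top).comp
    (tendsto_of_tendsto_of_tendsto_of_le_of_le' tendsto_const_nhds h2
      (Eventually.of_forall fun _ => zero_le) h3)
  have h5 := (h4.const_mul (4 / Real.pi)).sqrt
  rw [ENNReal.toReal_zero, mul_zero, Real.sqrt_zero] at h5
  refine tendsto_zero_iff_norm_tendsto_zero.2 (h5.congr fun z => ?_)
  rw [Function.comp_apply, ENNReal.toReal_ofReal (by positivity),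
    ← Real.sqrt_sq (norm_nonneg (w z * z)), norm_mul]
  congr 1
  field_simp
  ring

theorem remov : ∃ C : ℝ, 0 ≤ C ∧ ∀ w : ℂ → ℂ, DifferentiableOn ℂ w (pd 1) → ∀ a : ℝ, 0 ≤ a →
    ∫⁻ z in pd 1, ENNReal.ofReal (‖w z‖ ^ 2) ≤ ENNReal.ofReal a →
    ∃ W : ℂ → ℂ, DifferentiableOn ℂ W (ball 0 1) ∧ (∀ z ∈ pd 1, W z = w z) ∧
      ∀ z ∈ ball (0 : ℂ) (1 / 2), ‖W z‖ ^ 2 ≤ C * a := by
  refine ⟨16 / Real.pi, by positivity, fun w hw a ha hi => ?_⟩
  have h1 := rem_lim hw (hi.trans_lt ENNReal.ofReal_lt_top).ne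
  have h2 : (fun z => w z - w 0) =o[𝓝[≠] 0] fun z => (z - 0)⁻¹ := by
    refine (Asymptotics.isLittleO_iff_tendsto' ?_).2 ?_
    · filter_upwards [self_mem_nhdsWithin] with z hz k
      exact absurd (by simpa using k) hz
    · have h3 : Tendsto (fun z : ℂ => w 0 * z) (𝓝[≠] 0) (𝓝 (w 0 * 0)) :=
        (tendsto_id.const_mul _).mono_left nhdsWithin_le_nhds
      have h4 := h1.sub h3
      rw [mul_zero, sub_zero] at h4
      refine h4.congr fun z => ?_
      rw [sub_zero, div_inv_eq_mul, sub_mul]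
  have h3 := differentiableOn_update_limUnder_of_isLittleO (ball_mem_nhds (0 : ℂ) one_pos) hw h2
  have h4 : ∀ z ∈ pd 1, Function.update w 0 (limUnder (𝓝[≠] 0) w) z = w z := fun z hz =>
    Function.update_of_ne (mem_pd.1 hz).2 _ _
  refine ⟨_, h3, h4, fun z hz => ?_⟩
  generalize Function.update w 0 (limUnder (𝓝[≠] 0) w) = W at h3 h4 ⊢
  have k1 : ‖z‖ < 1 / 2 := mem_ball_zero_iff.1 hz
  have k2 : ball z (1 / 2) ⊆ ball 0 1 := fun x hx => mem_ball_zero_iff.2 (by
    have := norm_lt_of_mem_ball hx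
    linarith)
  have h5 := rem_lin (r := 1 / 4) (by norm_num) (by norm_num) (h3.mono k2)
  have h6 : ∫⁻ x in ball (0 : ℂ) 1, ENNReal.ofReal (‖W x‖ ^ 2) =
      ∫⁻ x in pd 1, ENNReal.ofReal (‖w x‖ ^ 2) := by
    rw [← setLIntegral_congr (diff_null_ae_eq_self (measure_singleton (0 : ℂ)))]
    exact setLIntegral_congr_fun (pd_open 1).measurableSet fun x hx => by rw [h4 x hx]
  have h7 := (ENNReal.ofReal_le_ofReal_iff ha).1 (h5.trans ((lintegral_mono_set
    ((ball_subset_ball (by norm_num)).trans k2)).trans (h6.trans_le hi)))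
  rw [div_mul_eq_mul_div, le_div_iff₀ Real.pi_pos]
  linarith

end Vale.Agent.P253
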