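import Vale.Agent.P253.Inv
import Vale.Agent.P253.Wt
import Vale.Agent.P253.Hor
import Vale.Agent.P253.Cut
import Vale.Agent.P253.Rem
import Vale.Agent.P253.Mod
import Vale.Agent.P253.JP

/-! Improved integrability of a square integrable section on the punctured disc. -/

namespace Vale.Agent.P253

open Complex Matrix Metric Set Filter Topology MeasureTheory
open scoped ContDiff ComplexConjugate ComplexOrder ENNReal

variable {n : ℕ}

lemma core_smul (G : M n) (c : ℝ) (v : Fin n → ℂ) : nsq ((c : ℂ) • G) v = c * nsq G v := by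
  simp only [nsq, Matrix.smul_apply, smul_eq_mul, mul_assoc, ← Finset.mul_sum, re_ofReal_mul]

lemma core_vsmul (G : M n) (c : ℝ) (v : Fin n → ℂ) : nsq G ((c : ℂ) • v) = c ^ 2 * nsq G v := by
  have : ∀ i j, G i j * ((c : ℂ) • v) i * conj (((c : ℂ) • v) j) =
      ((c ^ 2 : ℝ) : ℂ) * (G i j * v i * conj (v j)) := fun i j => by
    simp only [Pi.smul_apply, smul_eq_mul, map_mul, conj_ofReal]
    push_cast
    ring
  simp only [nsq, this, ← Finset.mul_sum, re_ofReal_mul]

lemma core_sub {G : M n} (h : G.PosDef) (u v : Fin n → ℂ) :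
    nsq G (u - v) ≤ 2 * nsq G u + 2 * nsq G v := by
  have h1 := nsq_nonneg h (u + v)
  have h2 : nsq G (u + v) + nsq G (u - v) = 2 * nsq G u + 2 * nsq G v := by
    simp only [nsq, two_mul, ← add_re, ← Finset.sum_add_distrib, Pi.add_apply, Pi.sub_apply,
      map_add, map_sub]
    congr 1
    refine Finset.sum_congr rfl fun i _ => Finset.sum_congr rfl fun j _ => by ring
  linarith

lemma core_cont {G : ℂ → M n} {U : Set ℂ} (h : Sm U G) {u : ℂ → Fin n → ℂ}
    (hu : ContinuousOn u U) : ContinuousOn (fun z => nsq (G z) (u z)) U := by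
  refine continuous_re.comp_continuousOn (continuousOn_finset_sum _ fun i _ =>
    continuousOn_finset_sum _ fun j _ => ?_)
  exact ((h.smooth i j).continuousOn.mul ((continuous_apply i).comp_continuousOn hu)).mul
    (continuous_conj.comp_continuousOn ((continuous_apply j).comp_continuousOn hu))

lemma core_inv {G : M n} (h : G.PosDef) (x : ℝ) :
    ((Real.exp x : ℂ) • G⁻¹)⁻¹ = (Real.exp (-x) : ℂ) • G := by
  refine Matrix.inv_eq_right_inv ?_
  rw [Matrix.smul_mul, Matrix.mul_smul, smul_smul, Matrix.nonsing_inv_mul _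
    ((Matrix.isUnit_iff_isUnit_det _).1 h.isUnit), ← ofReal_mul, ← Real.exp_add, add_neg_cancel,
    Real.exp_zero, ofReal_one, one_smul]

/-- The approximation step. -/
theorem core_step {G : ℂ → M n} (h : Sm (pd 1) G) (hp : Pos (pd 1) G) {v : ℂ → Fin n → ℂ}
    (hv : Differentiable ℂ v) (hi : IntegrableOn (fun z => nsq (G z) (v z)) (pd 1)) :
    ∃ C : ℝ, 0 ≤ C ∧ ∀ δ : ℝ, 0 < δ → ∃ w : ℂ → Fin n → ℂ, DifferentiableOn ℂ w (pd 1) ∧
      JJ G (v - w) ∧ ∫⁻ z in pd 1, ENNReal.ofReal (nsq (G z) (w z)) ≤ ENNReal.ofReal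
        (C * ∫ z in pd 1 ∩ closedBall 0 (Real.exp (-1 / δ)), nsq (G z) (v z)) := by
  obtain ⟨C, C0, hC⟩ := cut
  refine ⟨2 + 2 * (Real.exp 1 * C), by positivity, fun δ hδ => ?_⟩
  obtain ⟨φ, χ, hφ, hχ, hz⟩ := hC δ hδ
  have hU := pd_open 1
  obtain ⟨i1, i2⟩ := inv_neg hU h hp
  obtain ⟨k1, k2⟩ := neg_wt hU i1 i2 hφ
  have N0 : ∀ z ∈ pd 1, ∀ u, 0 ≤ nsq (G z) u := fun z hz u => nsq_nonneg (h.pos z hz) u
  obtain ⟨B, hB⟩ : ∃ B, B = closedBall (0 : ℂ) (Real.exp (-1 / δ)) := ⟨_, rfl⟩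
  have mB : MeasurableSet B := hB ▸ measurableSet_closedBall
  have hB' : ∀ z, z ∈ B ↔ ‖z‖ ≤ Real.exp (-1 / δ) := fun z => by simp [hB]
  rw [← hB]
  obtain ⟨a, ha⟩ : ∃ a, a = ∫ z in pd 1 ∩ B, nsq (G z) (v z) := ⟨_, rfl⟩
  have a0 : 0 ≤ a := ha ▸ setIntegral_nonneg (hU.measurableSet.inter mB) fun z hz => N0 z hz.1 _
  have iB : IntegrableOn (B.indicator fun z => nsq (G z) (v z)) (pd 1) := hi.indicator mB
  have eB : ∫ z in pd 1, B.indicator (fun z => nsq (G z) (v z)) z = a := by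
    rw [setIntegral_indicator mB, ha]
  have nB : ∀ z ∈ pd 1, 0 ≤ B.indicator (fun z => nsq (G z) (v z)) z := fun z hz =>
    indicator_apply_nonneg fun _ => N0 z hz _
  obtain ⟨w, w1, w2⟩ := hormander hU k1 k2 (continuous_re.comp_continuousOn
    (d1_smooth hU (d2_smooth hU (ofRealCLM.contDiff.comp_contDiffOn hφ))).continuousOn)
    (fun z k => (hz z k).1) hχ hv.differentiableOn
    (m := fun z => C * B.indicator (fun z => nsq (G z) (v z)) z)
    (fun z k => mul_nonneg C0 (nB z k)) (iB.const_mul C) fun z k => by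
      rw [core_inv (h.pos z k), core_smul, ← mul_assoc]
      refine (mul_le_mul_of_nonneg_right (hz z k).2.2.2.2.2.2 (N0 z k _)).trans (le_of_eq ?_)
      by_cases b : z ∈ B
      · rw [if_pos ((hB' z).1 b), indicator_of_mem b, mul_assoc]
      · rw [if_neg fun c => b ((hB' z).2 c), indicator_of_notMem b]
        ring
  rw [integral_const_mul, eB] at w2
  have w3 : ∫⁻ z in pd 1, ENNReal.ofReal (nsq (G z) ((χ z : ℂ) • v z - w z) * ‖z‖ ^ (-δ)) ≤
      ENNReal.ofReal (Real.exp 1 * (C * a)) := by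
    rw [ENNReal.ofReal_mul (Real.exp_pos 1).le]
    refine le_trans ?_ (mul_le_mul_right w2 _)
    rw [← lintegral_const_mul' _ _ ENNReal.ofReal_ne_top]
    refine setLIntegral_mono' hU.measurableSet fun z k => ?_
    rw [← ENNReal.ofReal_mul (Real.exp_pos 1).le, core_inv (h.pos z k), core_smul, ← mul_assoc,
      mul_comm]
    refine ENNReal.ofReal_le_ofReal (mul_le_mul_of_nonneg_right ?_ (N0 z k _))
    rw [Real.rpow_def_of_pos (norm_pos_iff.2 (mem_pd.1 k).2), ← Real.exp_add]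
    exact Real.exp_le_exp.2 (by linarith [(hz z k).2.1])
  have r1 : Real.exp (-2 / δ) ≤ 1 := Real.exp_le_one_iff.2 (by
    rw [neg_div]; exact neg_nonpos.2 (by positivity))
  have sb : pd (Real.exp (-2 / δ)) ⊆ pd 1 := fun z k =>
    mem_pd.2 ⟨(mem_pd.1 k).1.trans_le r1, (mem_pd.1 k).2⟩
  refine ⟨w, w1, ⟨δ, _, hδ, Real.exp_pos _, r1,
    hv.continuous.continuousOn.sub (w1.continuousOn.mono sb), ?_⟩, ?_⟩
  · refine lt_of_le_of_lt (le_trans (le_of_eq ?_) ((lintegral_mono_set sb).trans w3))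
      ENNReal.ofReal_lt_top
    refine setLIntegral_congr_fun (pd_open _).measurableSet fun z k => ?_
    simp only [(hz z (sb k)).2.2.2.2.1 (mem_pd.1 k).1, ofReal_one, one_smul, Pi.sub_apply]
  have w4 : ∀ z ∈ pd 1, ENNReal.ofReal (nsq (G z) (w z)) ≤
      ENNReal.ofReal (2 * B.indicator (fun z => nsq (G z) (v z)) z) +
        2 * ENNReal.ofReal (nsq (G z) ((χ z : ℂ) • v z - w z) * ‖z‖ ^ (-δ)) := fun z k => by
    obtain ⟨-, -, c0, c1, -, c2, -⟩ := hz z k
    have h1 := core_sub (h.pos z k) ((χ z : ℂ) • v z) ((χ z : ℂ) • v z - w z)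
    rw [sub_sub_cancel, core_vsmul] at h1
    have h2 : χ z ^ 2 * nsq (G z) (v z) ≤ B.indicator (fun z => nsq (G z) (v z)) z := by
      by_cases b : z ∈ B
      · rw [indicator_of_mem b]
        exact mul_le_of_le_one_left (N0 z k _) (pow_le_one₀ c0 c1)
      · rw [indicator_of_notMem b, c2 (not_le.1 fun c => b ((hB' z).2 c))]
        simp
    have h3 : 1 ≤ ‖z‖ ^ (-δ) := Real.one_le_rpow_of_pos_of_le_one_of_nonpos
      (norm_pos_iff.2 (mem_pd.1 k).2) (mem_pd.1 k).1.le (by linarith)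
    have h4 := le_mul_of_one_le_right (N0 z k ((χ z : ℂ) • v z - w z)) h3
    rw [← ENNReal.ofReal_ofNat, ← ENNReal.ofReal_mul (by norm_num), ← ENNReal.ofReal_add
      (mul_nonneg (by norm_num) (nB z k)) (by linarith [N0 z k ((χ z : ℂ) • v z - w z)])]
    exact ENNReal.ofReal_le_ofReal (by push_cast; linarith)
  refine (setLIntegral_mono' hU.measurableSet w4).trans ?_
  rw [lintegral_add_left' (iB.const_mul 2).aemeasurable.ennreal_ofReal,
    lintegral_const_mul' _ _ ENNReal.ofNat_ne_top, ← ofReal_integral_eq_lintegral_ofReal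
      (iB.const_mul 2) ((ae_restrict_iff' hU.measurableSet).2 (Eventually.of_forall fun z k =>
        mul_nonneg (by norm_num) (nB z k))), integral_const_mul, eB, ← ha]
  refine (add_le_add_right (mul_le_mul_right w3 2) _).trans ?_
  rw [← ENNReal.ofReal_ofNat, ← ENNReal.ofReal_mul (by norm_num),
    ← ENNReal.ofReal_add (by positivity) (by positivity)]
  exact ENNReal.ofReal_le_ofReal (le_of_eq (by push_cast; ring))

theorem core {G : ℂ → M n} (h : Sm (pd 1) G) (hp : Pos (pd 1) G) {c : ℝ} (c0 : 0 ≤ c)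
    (hl : ∀ z ∈ pd 1, ∀ (v : Fin n → ℂ) i, ‖v i‖ ^ 2 ≤ c * nsq (G z) v) {v : ℂ → Fin n → ℂ}
    (hv : Differentiable ℂ v) (hi : ∫⁻ z in pd 1, ENNReal.ofReal (nsq (G z) (v z)) < ⊤) :
    JJ G v := by
  classical
  have hU := pd_open 1
  have N0 : ∀ z ∈ pd 1, ∀ u, 0 ≤ nsq (G z) u := fun z hz u => nsq_nonneg (h.pos z hz) u
  have hi' : IntegrableOn (fun z => nsq (G z) (v z)) (pd 1) :=
    ⟨(core_cont h hv.continuous.continuousOn).aestronglyMeasurable hU.measurableSet,
      (hasFiniteIntegral_iff_ofReal ((ae_restrict_iff' hU.measurableSet).2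
        (Eventually.of_forall fun z k => N0 z k _))).2 hi⟩
  obtain ⟨C, C0, hC⟩ := core_step h hp hv hi'
  obtain ⟨D, D0, hD⟩ := remov
  obtain ⟨j0, j1, j2, j3⟩ := jj_props h
  have jp : ∀ u u' : ℂ → Fin n → ℂ, (∀ z ∈ pd 1, u z = u' z) → JJ G u → JJ G u' := by
    rintro u u' e ⟨δ, ρ, a1, a2, a3, a4, a5⟩
    have e' : ∀ z ∈ pd ρ, u z = u' z := fun z k =>
      e z (mem_pd.2 ⟨(mem_pd.1 k).1.trans_le a3, (mem_pd.1 k).2⟩)
    refine ⟨δ, ρ, a1, a2, a3, a4.congr fun z k => (e' z k).symm, lt_of_eq_of_lt ?_ a5⟩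
    exact setLIntegral_congr_fun (pd_open _).measurableSet fun z k => by simp only [e' z k]
  have lim : Tendsto (fun k : ℕ => ∫ z in pd 1 ∩ closedBall 0 (Real.exp (-1 / (1 / (k + 1 : ℝ)))),
      nsq (G z) (v z)) atTop (𝓝 0) := by
    have h1 := tendsto_setIntegral_of_antitone (μ := volume) (f := fun z => nsq (G z) (v z))
      (s := fun k : ℕ => pd 1 ∩ closedBall 0 (Real.exp (-1 / (1 / (k + 1 : ℝ)))))
      (fun k => hU.measurableSet.inter measurableSet_closedBall)
      (fun k l hkl => inter_subset_inter_right _ (closedBall_subset_closedBall (Real.exp_le_exp.2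
        (by
          have : (k : ℝ) ≤ l := Nat.cast_le.2 hkl
          rw [div_div_eq_mul_div, div_div_eq_mul_div]
          linarith)))) ⟨0, hi'.mono_set inter_subset_left⟩
    have h2 : ⋂ k : ℕ, pd 1 ∩ closedBall 0 (Real.exp (-1 / (1 / (k + 1 : ℝ)))) = ∅ := by
      refine eq_empty_of_forall_notMem fun z hz => ?_
      rw [mem_iInter] at hz
      obtain ⟨k, hk⟩ := exists_nat_gt (-Real.log ‖z‖)
      have h3 := mem_closedBall_zero_iff.1 (hz k).2
      rw [← Real.log_le_iff_le_exp (norm_pos_iff.2 (mem_pd.1 (hz k).1).2), div_div_eq_mul_div,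
        div_one] at h3
      linarith
    rwa [h2, setIntegral_empty] at h1
  refine mod_closed j0 j1 j2 j3 (hv.analyticAt 0) (ρ := 1 / 2) (by norm_num) fun ε hε => ?_
  have h4 := (lim.const_mul (D * (c * C))).eventually (gt_mem_nhds
    (show D * (c * C) * 0 < ε ^ 2 by rw [mul_zero]; positivity))
  obtain ⟨k, hk⟩ := h4.exists
  obtain ⟨w, w1, w2, w3⟩ := hC (1 / (k + 1 : ℝ)) (by positivity)
  have a0 : 0 ≤ ∫ z in pd 1 ∩ closedBall 0 (Real.exp (-1 / (1 / (k + 1 : ℝ)))), nsq (G z) (v z) :=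
    setIntegral_nonneg (hU.measurableSet.inter measurableSet_closedBall) fun z hz => N0 z hz.1 _
  generalize ∫ z in pd 1 ∩ closedBall 0 (Real.exp (-1 / (1 / (k + 1 : ℝ)))), nsq (G z) (v z) = a
    at hk w3 a0
  have h5 := fun i => hD (fun z => w z i) (differentiableOn_pi.1 w1 i) (c * (C * a))
    (by positivity) (by
      rw [ENNReal.ofReal_mul c0]
      refine le_trans ?_ (mul_le_mul_right w3 _)
      rw [← lintegral_const_mul' _ _ ENNReal.ofReal_ne_top]
      refine setLIntegral_mono' hU.measurableSet fun z k => ?_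
      rw [← ENNReal.ofReal_mul c0]
      exact ENNReal.ofReal_le_ofReal (hl z k _ i))
  choose W W1 W2 W3 using h5
  refine ⟨fun z i => W i z, differentiableOn_pi.2 fun i => (W1 i).mono
    (ball_subset_ball (by norm_num)), fun z hz => (pi_norm_le_iff_of_nonneg hε.le).2 fun i =>
      (pow_le_pow_iff_left₀ (norm_nonneg _) hε.le two_ne_zero).1 ((W3 i z hz).trans
        (by linarith)), jp _ _ (fun z k => ?_) w2⟩
  funext i
  simp only [Pi.sub_apply, W2 i z k]

end Vale.Agent.P253
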