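import Vale.Agent.P253.Stmt

/-! One variable Wirtinger calculus for vectors and matrices. -/

namespace Vale.Agent.P253

open Complex Matrix Metric
open scoped ContDiff ComplexOrder

variable {n : ℕ}

/-- Square matrices. -/
abbrev M (n : ℕ) := Matrix (Fin n) (Fin n) ℂ

/-- `∂ f / ∂ z`. -/
noncomputable def d1 (f : ℂ → ℂ) (z : ℂ) : ℂ := (fderiv ℝ f z 1 - I * fderiv ℝ f z I) / 2

/-- `∂ f / ∂ conj z`. -/
noncomputable def d2 (f : ℂ → ℂ) (z : ℂ) : ℂ := (fderiv ℝ f z 1 + I * fderiv ℝ f z I) / 2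

/-- Entrywise `∂ / ∂ z`. -/
noncomputable def m1 (K : ℂ → M n) (z : ℂ) : M n := Matrix.of fun i j => d1 (fun w => K w i j) z

/-- Entrywise `∂ / ∂ conj z`. -/
noncomputable def m2 (K : ℂ → M n) (z : ℂ) : M n := Matrix.of fun i j => d2 (fun w => K w i j) z

/-- The Hermitian form `t^* K s`. -/
noncomputable def hf (K : M n) (t s : Fin n → ℂ) : ℂ := star t ⬝ᵥ K *ᵥ s

/-- A smooth positive definite matrix function on `U`. -/
structure Sm (U : Set ℂ) (K : ℂ → M n) : Prop where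
  smooth : ∀ i j, ContDiffOn ℝ ∞ (fun z => K z i j) U
  pos : ∀ z ∈ U, (K z).PosDef

/-- The block form of the curvature of the dual metric `K`. -/
noncomputable def blk (K : ℂ → M n) (z : ℂ) (t s : Fin n → ℂ) : ℝ :=
  (hf (m1 (m2 K) z) t t + hf (m1 K z) s t + hf (m2 K z) t s + hf (K z) s s).re

/-- The curvature of the dual metric `K` is at least `l`. -/
def Neg (U : Set ℂ) (K : ℂ → M n) (l : ℂ → ℝ) : Prop :=
  ∀ z ∈ U, ∀ t s, l z * (hf (K z) t t).re ≤ blk K z t s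

/-- The curvature of the metric `G` is nonnegative. -/
def Pos (U : Set ℂ) (G : ℂ → M n) : Prop :=
  ∀ z ∈ U, ∀ y, 0 ≤ (hf (-m1 (m2 G) z + m1 G z * (G z)⁻¹ * m2 G z) y y).re

/-- The punctured disc. -/
def pd (r : ℝ) : Set ℂ := ball 0 r \ {0}

lemma pd_open (r : ℝ) : IsOpen (pd r) := isOpen_ball.sdiff isClosed_singleton

lemma mem_pd {r : ℝ} {z : ℂ} : z ∈ pd r ↔ ‖z‖ < r ∧ z ≠ 0 := by simp [pd]

lemma nsq_eq (G : M n) (v : Fin n → ℂ) : nsq G v = (hf G (star v) (star v)).re := by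
  simp only [nsq, hf, star_star, dotProduct, mulVec, Finset.mul_sum, Pi.star_apply]
  congr 1
  refine Finset.sum_congr rfl fun i _ => Finset.sum_congr rfl fun j _ => ?_
  rw [starRingEnd_apply]
  ring

lemma nsq_nonneg {G : M n} (h : G.PosDef) (v : Fin n → ℂ) : 0 ≤ nsq G v := by
  rw [nsq_eq]
  exact (h.posSemidef.dotProduct_mulVec_nonneg (star v)).1

/-- A family of discs that touches the complement of `Ω` at one point. -/
structure Touch (Ω : Set (E n)) (f b : ℂ → E n) : Prop where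
  df : Differentiable ℂ f
  db : Differentiable ℂ b
  ins : ∀ t ∈ Set.Icc (0 : ℝ) 1, ∀ ζ : ℂ, ‖ζ‖ ≤ 2 → (t < 1 ∨ ζ ≠ 0) → f ζ + (t : ℂ) • b ζ ∈ Ω
  out : f 0 + b 0 ∉ Ω

/-- Coordinatewise `∂ / ∂ z`. -/
noncomputable def vd1 (t : ℂ → Fin n → ℂ) (z : ℂ) (i : Fin n) : ℂ := d1 (fun w => t w i) z

/-- Coordinatewise `∂ / ∂ conj z`. -/
noncomputable def vd2 (t : ℂ → Fin n → ℂ) (z : ℂ) (i : Fin n) : ℂ := d2 (fun w => t w i) z

/-- Test vectors. -/
structure Tst (U : Set ℂ) (t : ℂ → Fin n → ℂ) : Prop where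
  smooth : ∀ i, ContDiff ℝ ∞ fun z => t z i
  cpt : HasCompactSupport t
  sub : tsupport t ⊆ U

/-- Germs with an improved integrability. -/
def JJ (G : ℂ → M n) (u : ℂ → Fin n → ℂ) : Prop :=
  ∃ δ ρ : ℝ, 0 < δ ∧ 0 < ρ ∧ ρ ≤ 1 ∧ ContinuousOn u (pd ρ) ∧
    ∫⁻ z in pd ρ, ENNReal.ofReal (nsq (G z) (u z) * ‖z‖ ^ (-δ)) < ⊤

/-- The area density of the disc with parameter `t`. -/
noncomputable def NN (g : E n → M n) (f b : ℂ → E n) (t : ℝ) (z : ℂ) : ℝ :=
  nsq (g (f z + (t : ℂ) • b z)) fun i => deriv f z i + t * deriv b z i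

/-- The potential of the variation of the area density. -/
noncomputable def PP (g : E n → M n) (f b : ℂ → E n) (t : ℝ) (z : ℂ) : ℂ :=
  ∑ i, ∑ j, g (f z + (t : ℂ) • b z) i j * b z i *
    (starRingEnd ℂ) (deriv f z j + t * deriv b z j)

end Vale.Agent.P253
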